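import Crest.Agent.X212.Num57.Hs
import Crest.Agent.X212.Wz78.Var

/-!
# Row 212 (helper36): the Chern-Weil integral under integrable changes of the connection
-/

set_option autoImplicit false
set_option linter.unusedSectionVars false
noncomputable section
open scoped Manifold ContDiff Topology
open MeasureTheory Set Function Filter Asymptotics

namespace Crest.Agent.X212.Top36
open An Sob92 Wz78 Num57

section big
variable {X V W : Type} [NormedAddCommGroup V] [NormedSpace ℝ V] {R : Type} [NormedRing R]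
  {l : Filter X} {e : X → ℝ}

theorem o1 {u : X → V} (h : ∃ C, ∀ x, ‖u x‖ ≤ C) : u =O[l] fun _ => (1 : ℝ) :=
  let ⟨C, h⟩ := h; IsBigO.of_bound C (.of_forall fun x => by simpa using h x)

theorem mul1 {u v : X → R} (hu : u =O[l] fun _ => (1 : ℝ)) (hv : v =O[l] e) :
    (fun x => u x * v x) =O[l] e := by simpa using hu.mul hv

theorem mul2 {u v : X → R} (hu : u =O[l] e) (hv : v =O[l] fun _ => (1 : ℝ)) :
    (fun x => u x * v x) =O[l] e := by simpa using hu.mul hv

theorem smul1 {u : X → ℝ} {v : X → V} (hu : u =O[l] fun _ => (1 : ℝ)) (hv : v =O[l] e) :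
    (fun x => u x • v x) =O[l] e := by simpa using hu.smul hv

end big

variable {E : Type} [NormedAddCommGroup E] [NormedSpace ℝ E] [FiniteDimensional ℝ E]
  [MeasurableSpace E] [BorelSpace E]
  {HM : Type} [TopologicalSpace HM] {I : ModelWithCorners ℝ E HM} [I.Boundaryless]
  {M : Type} [TopologicalSpace M] [ChartedSpace HM M] [IsManifold I ∞ M] [T2Space M]
  [MeasurableSpace M] [BorelSpace M] [SecondCountableTopology M] {ι : Type} [Fintype ι]
  {V : Type} [NormedAddCommGroup V] [NormedSpace ℝ V] [FiniteDimensional ℝ V]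
  {F : Fr I M ι} {o : ι → ι → ι → ι → M → ℝ} {A A' γ : ι → M → V →L[ℝ] V} {T : M → V →L[ℝ] V}

/-- the trace -/
def trC : (V →L[ℝ] V) →L[ℝ] ℝ :=
  LinearMap.toContinuousLinearMap (LinearMap.trace ℝ V ∘ₗ ContinuousLinearMap.coeLM ℝ)

theorem cwd_def (x : M) : cwd F o T A x = ∑ a, ∑ b, ∑ c, ∑ d,
    o a b c d x * trC (T x * curv I F.e F.c A a b x * curv I F.e F.c A c d x) := rfl

theorem cwd_congr {x : M} (h : ∀ a, A a =ᶠ[𝓝 x] A' a) : cwd F o T A x = cwd F o T A' x := by
  simp only [cwd, curv, fun a b => dv_congr (I := I) (e := F.e a) (h b), fun a => (h a).self_of_nhds]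

theorem ct_cwd (h : OK F o) (hT : An.Sm I T) (hA : ∀ a x, SA I (A a) x) :
    Continuous (cwd F o T A) := by
  have k : ∀ a b, Continuous (curv I F.e F.c A a b) := fun a b =>
    continuous_iff_continuousAt.2 fun x => ((frm F).sCurv (hA · x) a b).continuousAt
  have := fun a b c d => (h.sm a b c d).continuous
  have := hT.continuous
  rw [show cwd F o T A = _ from funext cwd_def]
  fun_prop

/-- compactly supported changes -/
theorem cw_cpt (h : OK F o) (hA : Con I F.P A) (hA' : Con I F.P A') (hT : An.Sm I T)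
    (p : ∀ a x, nabE I F.e A a T x = 0) (p' : ∀ a x, nabE I F.e A' a T x = 0) {K : Set M}
    (hK : IsCompact K) (e : ∀ a, ∀ x ∉ K, A' a x = A a x) :
    ∫ x, (cwd F o T A' x - cwd F o T A x) ∂F.μ = 0 := by
  have := integ_c2_rel h.ori (cn_co F fun a x _ => hA.sm a x) (cn_co F fun a x _ => hA'.sm a x)
    (pa_cn F (fun x _ a => hA.proj a x) (fun x _ => hT x) fun x _ a => p a x)
    (pa_cn F (fun x _ a => hA'.proj a x) (fun x _ => hT x) fun x _ a => p' a x) hK
    fun i j x hx => by simp [cn, fm1, Finset.sum_apply, e _ x hx]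
  rw [h.integ_eq, Int54.rat_sub] at this
  simp only [Pi.sub_apply, rat_c2 F h.h4 (h.vo' _) (fun a => hA.sm a _) (.of_forall fun y a => hA.proj a y),
    rat_c2 F h.h4 (h.vo' _) (fun a => hA'.sm a _) (.of_forall fun y a => hA'.proj a y), ← mul_sub,
    integral_const_mul] at this
  exact (mul_eq_zero.1 this).resolve_left (by norm_num)

theorem bdd {N : Type} [NormedAddCommGroup N] [NormedSpace ℝ N] {F : Pre I M ι} {f : M → N}
    (h : F.Cb f) : ∃ C, ∀ x, ‖f x‖ ≤ C := ⟨_, CB_zero.1 (h.choose_spec.2 0)⟩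

/-- **integrable changes** -/
theorem cw_int (h : OK F o) {C : ℕ → ℝ} (hF : F.Tame C) (ho : ∀ a b c d, ∃ C, ∀ x, ‖o a b c d x‖ ≤ C)
    (hA : Con I F.P A) (hγ : Con I F.P γ) (cA : ∀ a, F.Cb (A a)) (cγ : ∀ a, F.Cb (γ a))
    (hT : An.Sm I T) (bT : ∃ C, ∀ x, ‖T x‖ ≤ C) (p : ∀ a x, nabE I F.e A a T x = 0)
    (cm : ∀ a x, γ a x * T x = T x * γ a x) (i0 : ∀ a, Integrable (γ a) F.μ)
    (i1 : ∀ a b, Integrable (F.D a (γ b)) F.μ) :
    ∫ x, cwd F o T (A + γ) x ∂F.μ = ∫ x, cwd F o T A x ∂F.μ := by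
  have := Int54.sigmaCompact (I := I) M
  have := Manifold.locallyCompact_of_finiteDimensional (M := M) I
  let K := CompactExhaustion.choice M
  choose χ h1 h2 h3 h4 using fun n => hF.exh (K n) (K.isCompact n)
  let β : ℕ → ι → M → V →L[ℝ] V := fun n a x => χ n x • γ a x
  have sβ : ∀ n a x, SA I (β n a) x := fun n a x => SA.smul ((h1 n).1 x) (hγ.sm a x)
  have cβ : ∀ n, Con I F.P (A + β n) := fun n => ⟨fun a x => (hA.sm a x).add (sβ n a x), fun a x => by
    simp only [Pi.add_apply, β, smul_add, Finset.sum_add_distrib, hA.proj, smul_comm _ (χ n x),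
      ← Finset.smul_sum, hγ.proj]⟩
  let g : M → ℝ := fun x => ∑ a, ‖γ a x‖ + ∑ a, ∑ b, ‖F.D a (γ b) x‖
  have ig : Integrable g F.μ := (integrable_finsetSum _ fun a _ => (i0 a).norm).add
    (integrable_finsetSum _ fun a _ => integrable_finsetSum _ fun b _ => (i1 a b).norm)
  have n0 : ∀ x, 0 ≤ ∑ a, ‖γ a x‖ := fun x => by positivity
  have n1 : ∀ x, 0 ≤ ∑ a, ∑ b, ‖F.D a (γ b) x‖ := fun x => by positivity
  have ob : ∀ {N : Type} [NormedAddCommGroup N] [NormedSpace ℝ N] {f : M → N},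
      (∃ C, ∀ x, ‖f x‖ ≤ C) → (fun q : ℕ × M => f q.2) =O[⊤] fun _ => (1 : ℝ) :=
    fun ⟨C, h⟩ => o1 ⟨C, fun q => h q.2⟩
  have g0 : ∀ a, (fun q : ℕ × M => γ a q.2) =O[⊤] fun q => g q.2 := fun a =>
    isBigO_of_le _ fun q => ((Finset.single_le_sum (f := fun a => ‖γ a q.2‖)
      (fun _ _ => norm_nonneg _) (Finset.mem_univ a)).trans (le_add_of_nonneg_right (n1 _))).trans
        (le_abs_self _)
  have g1 : ∀ a b, (fun q : ℕ × M => F.D a (γ b) q.2) =O[⊤] fun q => g q.2 := fun a b =>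
    isBigO_of_le _ fun q => (((Finset.single_le_sum (f := fun b => ‖F.D a (γ b) q.2‖)
      (fun _ _ => norm_nonneg _) (Finset.mem_univ b)).trans (Finset.single_le_sum
        (f := fun a => ∑ b, ‖F.D a (γ b) q.2‖) (fun _ _ => by positivity)
          (Finset.mem_univ a))).trans (le_add_of_nonneg_left (n0 _))).trans (le_abs_self _)
  have gb : (fun q : ℕ × M => g q.2) =O[⊤] fun _ => (1 : ℝ) :=
    (IsBigO.fun_sum fun a _ => (ob (bdd (cγ a))).norm_left).add
      (IsBigO.fun_sum fun a _ => IsBigO.fun_sum fun b _ => (ob (bdd (Cb_D (cγ b) a))).norm_left)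
  have c0 : (fun q : ℕ × M => χ q.1 q.2) =O[⊤] fun _ => (1 : ℝ) :=
    o1 ⟨C 0, fun q => (h1 q.1).2 0 [] le_rfl q.2⟩
  have c1 : ∀ a, (fun q : ℕ × M => F.D a (χ q.1) q.2) =O[⊤] fun _ => (1 : ℝ) := fun a =>
    o1 ⟨C 1, fun q => (h1 q.1).2 1 [a] le_rfl q.2⟩
  have b0 : ∀ a, (fun q : ℕ × M => β q.1 a q.2) =O[⊤] fun q => g q.2 := fun a => smul1 c0 (g0 a)
  have b1 : ∀ a b, (fun q : ℕ × M => dv I (F.e a) (β q.1 b) q.2) =O[⊤] fun q => g q.2 :=
    fun a b => ((smul1 (c1 a) (g0 b)).add (smul1 c0 (g1 a b))).congr_left fun q =>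
      (dv_smul (SA.md ((h1 q.1).1 q.2)) (hγ.sm b q.2).md).symm
  have a0 := fun a => ob (bdd (cA a))
  have k0 := fun a b k => ob (bdd (F := F.toPre) ⟨C, hF.c a b k⟩)
  have nb : ∀ a b, (fun q : ℕ × M => nabE I F.e A a (β q.1 b) q.2) =O[⊤] fun q => g q.2 :=
    fun a b => (b1 a b).add ((mul1 (a0 a) (b0 b)).sub (mul2 (b0 b) (a0 a)))
  have e0 : ∀ a b, (fun q : ℕ × M => curv I F.e F.c (A + β q.1) a b q.2
      - curv I F.e F.c A a b q.2) =O[⊤] fun q => g q.2 := fun a b =>
    ((((nb a b).sub (nb b a)).sub (IsBigO.fun_sum fun k _ => smul1 (k0 a b k) (b0 k))).add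
      ((mul1 ((b0 a).trans gb) (b0 b)).sub (mul1 ((b0 b).trans gb) (b0 a)))).congr_left fun q => by
        rw [curv_addA (hA.sm · q.2) (sβ q.1 · q.2), dA]; abel
  have f0 : ∀ a b, (fun q : ℕ × M => curv I F.e F.c A a b q.2) =O[⊤] fun _ => (1 : ℝ) := fun a b =>
    (((ob (bdd (Cb_D (cA b) a))).sub (ob (bdd (Cb_D (cA a) b)))).add ((mul1 (a0 a) (a0 b)).sub
      (mul1 (a0 b) (a0 a)))).sub (IsBigO.fun_sum fun k _ => smul1 (k0 a b k) (a0 k))
  have f1 : ∀ a b, (fun q : ℕ × M => curv I F.e F.c (A + β q.1) a b q.2) =O[⊤] fun _ => (1 : ℝ) :=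
    fun a b => (((e0 a b).trans gb).add (f0 a b)).congr_left fun q => sub_add_cancel _ _
  have d0 : (fun q : ℕ × M => cwd F o T (A + β q.1) q.2 - cwd F o T A q.2) =O[⊤] fun q => g q.2 :=
    (IsBigO.fun_sum fun a _ => IsBigO.fun_sum fun b _ => IsBigO.fun_sum fun c _ => IsBigO.fun_sum fun d _ =>
      mul1 (ob (ho a b c d)) ((trC.isBigO_comp _ _).trans
        ((mul2 (mul1 (ob bT) (e0 a b)) (f1 c d)).add
          (mul1 (mul1 (ob bT) (f0 a b)) (e0 c d))))).congr_left fun q => by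
      simp only [cwd_def, ← Finset.sum_sub_distrib, ← mul_sub (o _ _ _ _ _), ← map_sub]
      refine Finset.sum_congr rfl fun a _ => Finset.sum_congr rfl fun b _ => Finset.sum_congr rfl
        fun c _ => Finset.sum_congr rfl fun d _ => congrArg (_ * trC ·) ?_
      noncomm_ring
  obtain ⟨B, hB⟩ := isBigO_top.1 d0
  have ev : ∀ x, ∀ᶠ n in atTop, cwd F o T (A + β n) x - cwd F o T A x
      = cwd F o T (A + γ) x - cwd F o T A x := fun x => by
    obtain ⟨n, hn⟩ := K.exists_mem_nhds x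
    filter_upwards [eventually_ge_atTop n] with k hk
    rw [cwd_congr fun a => ?_]
    filter_upwards [hn] with y hy
    simp [β, h4 k y (K.subset hk hy)]
  have ct0 := ct_cwd h hT hA.sm
  have ct1 := ct_cwd h hT (A := A + γ) fun a x => (hA.sm a x).add (hγ.sm a x)
  have id : Integrable (fun x => cwd F o T (A + γ) x - cwd F o T A x) F.μ :=
    (ig.norm.const_mul B).mono' (ct1.sub ct0).aestronglyMeasurable (ae_of_all _ fun x => by
      obtain ⟨n, hn⟩ := (ev x).exists
      exact hn ▸ hB (n, x))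
  have lim := tendsto_integral_of_dominated_convergence (μ := F.μ)
    (F := fun n x => cwd F o T (A + β n) x - cwd F o T A x) (fun x => B * ‖g x‖)
    (fun n => ((ct_cwd h hT (cβ n).sm).sub ct0).aestronglyMeasurable) (ig.norm.const_mul B)
    (fun n => ae_of_all _ fun x => hB (n, x))
    (ae_of_all _ fun x => tendsto_const_nhds.congr' ((ev x).mono fun _ => Eq.symm))
  have z : ∫ x, (cwd F o T (A + γ) x - cwd F o T A x) ∂F.μ = 0 := by
    refine tendsto_nhds_unique lim (tendsto_const_nhds.congr fun n => (cw_cpt h hA (cβ n) hT p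
      (fun a x => ?_) (h2 n).isCompact fun a x hx => ?_).symm)
    · rw [← p a x]
      simp only [nabE, Pi.add_apply, β, add_mul, mul_add, smul_mul_assoc, mul_smul_comm, cm]
      abel
    · simp [β, image_eq_zero_of_notMem_tsupport hx]
  by_cases k : Integrable (cwd F o T A) F.μ
  · rwa [integral_sub ((id.add k).congr (ae_of_all _ fun x => sub_add_cancel _ _)) k, sub_eq_zero] at z
  · rw [integral_undef k, integral_undef fun k' => k ((k'.sub id).congr
      (ae_of_all _ fun x => sub_sub_cancel _ _))]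

end Crest.Agent.X212.Top36
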