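import Crest.Agent.X212.Top36.Top
import Crest.Agent.X212.Top36.Cw
import Crest.Agent.X212.Nka63.B
import Mathlib.Analysis.SpecialFunctions.ImproperIntegrals

/-!
# Row 212, IX-KAP (helper36): the level is constant on the points with the same parameter
-/

set_option autoImplicit false
set_option linter.unusedSectionVars false
noncomputable section
open scoped Manifold ContDiff Topology InnerProductSpace
open MeasureTheory Set Function Filter

namespace Crest.Agent.X212.Top36
open An M Cyf70 Mod61 Nk89 Nd18 Sob92 Wz78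
open Grp76 (Nice)

theorem int_exp {δ : ℝ} (hδ : 0 < δ) : Integrable fun t : ℝ => Real.exp (-δ * |t|) := by
  rw [← integrableOn_univ, ← Iic_union_Ioi (a := 0)]
  exact ((integrableOn_exp_mul_Iic hδ 0).congr_fun (fun t ht => by
    simp [abs_of_nonpos (show t ≤ 0 from ht)]) measurableSet_Iic).union
    ((integrableOn_exp_mul_Ioi (neg_lt_zero.2 hδ) 0).congr_fun (fun t ht => by
      simp [abs_of_pos (show 0 < t from ht)]) measurableSet_Ioi)

variable {κ lam : Type} [Fintype κ] [Fintype lam] {Z : Mf 4} {T : Type} [NormedAddCommGroup T]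
  [NormedSpace ℝ T] {𝔉 : Fam Z.I Z.M (Option κ) lam T} {δ : ℝ} (X : Ends 𝔉 δ)

theorem eU_open (P : End 𝔉) (R : ℝ) : IsOpen (P.U R) :=
  P.K.ψ.open_target.inter (isOpen_lt continuous_const (continuous_const.mul P.K.cont))

/-- the inverse weight is integrable over the ends -/
theorem int_wt (a : X.A) :
    IntegrableOn (fun x => Real.exp (-(2 * X.ψ x))) ((X.P a).U X.R) 𝔉.G0.F.μ := by
  have k : IntegrableOn (fun x => Real.exp (-(2 * δ) * |(X.P a).K.tm x|)) (X.P a).K.ψ.target
      𝔉.G0.F.μ := (Nka63.integrableOn_comp_iff (X.P a).K.iso).1 (IntegrableOn.congr_fun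
    ((integrable_const (μ := (X.P a).D.F.μ) (1 : ℝ)).mul_prod
      (int_exp (mul_pos two_pos X.δ0))).integrableOn
    (fun z hz => by simp [(X.P a).K.tm_ψ z hz]) (X.P a).K.ψ.open_source.measurableSet)
  refine (k.mono_set fun x hx => hx.1).congr_fun (fun x hx => ?_) (eU_open _ _).measurableSet
  have h := X.R0.trans hx.2
  have e : |(X.P a).K.tm x| = (X.P a).sg * (X.P a).K.tm x := by
    rw [← abs_of_pos h, abs_mul, End.sg]; cases (X.P a).out <;> simp
  simp only [(X.okP a).wt x hx, e]; ring_nf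

include X in
/-- weighted square integrable functions are integrable -/
theorem int_nice {N : Type} [NormedAddCommGroup N] [NormedSpace ℝ N] {u : Z.M → N}
    (h : Nice 𝔉.F0.toPre u) {t : T} (ht : t ∈ 𝔉.Q) : Integrable u (𝔉.G t).F.μ := by
  have hc := h.sm.continuous
  have hψ := X.wt.sm.continuous
  have h2 : Integrable (fun x => Real.exp (2 * X.ψ x) * ‖u x‖ ^ 2) 𝔉.G0.F.μ := by
    have := (memLp_two_iff_integrable_sq_norm hc.aestronglyMeasurable).1 (h.2 0)
    rw [X.wt.μ, wm, integrable_withDensity_iff_integrable_smul' (meas_w hψ)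
      (.of_forall fun _ => ENNReal.ofReal_lt_top)] at this
    simpa only [ENNReal.toReal_ofReal (Real.exp_pos _).le, smul_eq_mul] using this
  rw [← integrableOn_univ, ← compl_union_self (⋃ a, (X.P a).U X.R)]
  refine (hc.continuousOn.integrableOn_compact X.cov).union
    (integrableOn_finite_iUnion.2 fun a => ?_)
  rw [IntegrableOn, (X.okP a).μ t ht]
  refine (h2.integrableOn.add (int_wt X a)).mono' hc.aestronglyMeasurable (ae_of_all _ fun x => ?_)
  have e : Real.exp (-(2 * X.ψ x)) * Real.exp (2 * X.ψ x) = 1 := by simp [← Real.exp_add]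
  have p := Real.exp_pos (2 * X.ψ x)
  have q := Real.exp_pos (-(2 * X.ψ x))
  have := norm_nonneg (u x)
  show ‖u x‖ ≤ Real.exp (2 * X.ψ x) * ‖u x‖ ^ 2 + Real.exp (-(2 * X.ψ x))
  nlinarith [mul_nonneg p.le (sq_nonneg (‖u x‖ - Real.exp (-(2 * X.ψ x))))]

theorem cb_W (h : 𝔉.OK) {o : Ref 𝔉} {r : ℕ} (y : Pnt o r) (a : Option κ) :
    (𝔉.G y.t).F.Cb (y.cfg.W a) :=
  (h.mix _ y.ht).Cb (fun a b => (h.sS a b).cb _ y.ht) (by
    have := Cb_clm (Map77.oa a) (Map77.cb_uy h y)
    simp only [Map77.uy, Map77.oa_base] at this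
    exact this)

/-- **IX-KAP** -/
theorem kapStmt : KapStmt Z κ lam := fun T _ _ 𝔉 δ X o R r y O _ hO _ => by
  have h := X.ok
  have hG := h.G _ y.ht
  have cS := fun a b => (h.sS a b).cb _ y.ht
  have mx := h.mix _ y.ht
  have c1 := (y.ad0 h).conn
  have c0 := ((pt0 o r y.ht).ad0 h).conn
  have s1 := (Idg99.sub_pg h.B hG o.ok c1).ind hO
  have s0 := (Idg99.sub_pg h.B hG o.ok c0).ind hO
  set A := o.m.adW (pt0 o r y.ht).cfg.W
  set A' := o.m.adW y.cfg.W
  have e : ∀ a, (A' - A) a = fun x => adcL (∑ b, 𝔉.S y.t x a b • opL (y.α x b)) := fun a => by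
    funext x
    have k1 : A' a x = adcL (o.W y.t y.α a x) := rfl
    have k0 : A a x = adcL (o.W y.t 0 a x) := rfl
    simp [k1, k0, W_apply]
  have n : ∀ a, Nice 𝔉.F0.toPre ((A' - A) a) := fun a => by
    rw [e]
    exact (Nice.sum _ fun b => Nice.bil (ContinuousLinearMap.lsmul ℝ ℝ) (cS a b)
      (((Grp76.hs_iff h).1 y.hα).1.clm (opL ∘L Grp76.pj o.m.A b))).clm adcL
  have k := cw_int (A := A) (γ := A' - A) (T := O.indicator o.m.pg)
    (Num57.OK.of_base Z.dim h.B hG) (h.tameG _ y.ht).choose_spec (fun a b c d => bdd (h.co a b c d))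
    s0.con ⟨fun a x => (s1.con.sm a x).sub (s0.con.sm a x), fun a x => by
      simp only [Pi.sub_apply, smul_sub, Finset.sum_sub_distrib, s1.con.proj, s0.con.proj]⟩
    (fun a => Cb_clm adcL (cb_W h (pt0 o r y.ht) a)) (fun a => mx.Cb cS (n a).1) s0.sm
    ⟨1, fun x => (norm_indicator_le_norm_self _ _).trans
      (ContinuousLinearMap.opNorm_le_bound _ zero_le_one fun ξ => by simpa using norm_pg x ξ)⟩
    s0.par (fun a x => by
      have := sub_eq_zero.2 ((s1.par a x).trans (s0.par a x).symm)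
      simp only [nabE] at this
      rw [← sub_eq_zero, ← this]
      simp only [Pi.sub_apply, sub_mul, mul_sub]
      abel)
    (fun a => int_nice X (n a) y.ht) fun a b => by
      rw [mx.D]
      exact int_nice X (Nice.sum _ fun c => Nice.bil (ContinuousLinearMap.lsmul ℝ ℝ) (cS a c)
        ((n b).D c)) y.ht
  rw [add_sub_cancel] at k
  have f : ∀ {W : o.m.Cn}, o.m.IsConn 𝔉.B (𝔉.G y.t) W →
      ∫ x, Num57.cwd (𝔉.G y.t).F 𝔉.B.o (O.indicator o.m.pg) (o.m.adW W) x ∂(𝔉.G y.t).F.μ =
        128 * Real.pi ^ 2 * ∫ x in O, o.m.kd 𝔉.B (𝔉.G y.t).F W x ∂(𝔉.G y.t).F.μ := fun {W} c => by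
    rw [← integral_const_mul, ← integral_indicator hO.2.measurableSet]
    refine integral_congr_ae (ae_of_all _ fun x => ?_)
    simp only [← cwd57, Idg99.cwd_ind, funext (Idg99.cwd_pg h.B hG o.ok c)]
  exact mul_left_cancel₀ (by positivity) ((f c1).symm.trans (k.trans (f c0)))

end Crest.Agent.X212.Top36
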