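import Crest.Agent.X212.Nd18.Ind
import Crest.Agent.X212.Num57.Dn

/-!
# Row 212, IX-TOP (helper36): the densities are natural, additive under cutting, zero on necks
-/

set_option autoImplicit false
set_option linter.unusedSectionVars false
noncomputable section
open scoped Manifold ContDiff Topology InnerProductSpace
open MeasureTheory Set Function Filter

namespace Crest.Agent.X212.Top36
open An M Cyf70 Idg99 Nd18 Eqv71

variable {κ lam : Type} [Fintype κ] [Fintype lam] {Z Z' Z₁ Z₃ Z₄ : Mf 4}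

section bridge
variable {ι : Type} [Fintype ι] {B : Base Z.M ι lam} {G : Geo Z.I Z.M ι lam}

theorem sgd57 (F : Fr Z.I Z.M ι) (o : ι → ι → ι → ι → Z.M → ℝ) (x : Z.M) :
    sgd F o x = Num57.sgd F o x := by
  rw [Idg99.sgd, Num57.sgd]; ring

theorem eud57 (F : Fr Z.I Z.M ι) (o : ι → ι → ι → ι → Z.M → ℝ) (x : Z.M) :
    eud F o x = Num57.eud F o x := by
  rw [Idg99.eud, Num57.eud]; ring

theorem cwd57 {V : Type} [NormedAddCommGroup V] [InnerProductSpace ℝ V] [FiniteDimensional ℝ V]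
    (F : Fr Z.I Z.M ι) (o : ι → ι → ι → ι → Z.M → ℝ) (T : Z.M → V →L[ℝ] V)
    (A : ι → Z.M → V →L[ℝ] V) (x : Z.M) : cwd F o T A x = Num57.cwd F o T A x := rfl

theorem lad57 (hB : B.OK Z.I) (hG : G.OK B) (x : Z.M) : lad B G x = Num57.lad B G x := by
  rw [lad_eq hB hG, Num57.lad, cwd57]; ring

end bridge

/-- the density of `tA` -/
def dA (b : BG κ lam Z) (x : Z.M) : ℝ := -(3 * (eud b.G.F b.B.o x + sgd b.G.F b.B.o x) / 2)

/-- the density of `tD` -/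
def dD (b : BG κ lam Z) (x : Z.M) : ℝ := (lad b.B b.G x - sgd b.G.F b.B.o x) / 2

/-- the density of `kap` -/
def dK (b : BG κ lam Z) (c : C0 Z κ lam) (x : Z.M) : ℝ := c.m.kd b.B b.G.F c.W x

section sm
variable {b : BG κ lam Z} (hB : b.B.OK Z.I) (hG : b.G.OK b.B)
include hB hG

theorem ct_dA : Continuous (dA b) :=
  have h := Num57.OK.of_base Z.dim hB hG
  ((continuous_const.mul ((sm_eud h).continuous.add (sm_sgd h).continuous)).div_const _).neg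

theorem ct_dD : Continuous (dD b) :=
  ((sm_lad hB hG Z.dim).continuous.sub
    (sm_sgd (Num57.OK.of_base Z.dim hB hG)).continuous).div_const _

theorem ct_dK {c : C0 Z κ lam} (h : c.Adm b.B b.G) : Continuous (dK b c) :=
  (sm_kd hB hG h.ok h.conn Z.dim).continuous

end sm

/-! ### necks -/

section neck
variable {B : Base Z.M (Option κ) lam} {G : Geo Z.I Z.M (Option κ) lam} (e : En B G) {s : ℝ}

theorem ht_anti {s t : ℝ} (h : s ≤ t) : e.ht t ⊆ e.ht s := fun _ hx => h.trans_lt hx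

theorem U_anti {s t : ℝ} (h : s ≤ t) : e.U t ⊆ e.U s :=
  image_mono (prod_mono subset_rfl (ht_anti e h))

theorem ht_open (s : ℝ) : IsOpen (e.ht s) := isOpen_lt continuous_const (by fun_prop)

theorem src_sub (h : e.ht s ⊆ e.K.J) : univ ×ˢ e.ht s ⊆ e.K.ψ.source :=
  e.K.src ▸ prod_mono subset_rfl h

theorem U_sub (h : e.ht s ⊆ e.K.J) : e.U s ⊆ e.K.ψ.target :=
  image_subset_iff.2 fun _ hz => e.K.ψ.map_source (src_sub e h hz)

theorem kd_cy {X : XD κ lam} (hX : X.D.OK) {β : X.C} (h : X.D.Adm β) (q : X.Y.M × ℝ) :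
    (cy β).m.kd X.D.B X.D.G.F (cy β).W q = 0 := by
  have k := cwd_pg (I := (cylM X.Y).I) hX.B hX.G h.adm.ok h.adm.conn q
  have k0 : Num57.cwd X.D.G.F X.D.B.o (cy β).m.pg ((cy β).m.adW (cy β).W) q = 0 :=
    Num57.cwd_cyl (Num57.vol_of_base hX.B q) (fun a => (Eqv71.con_adW h.adm.conn).sm a q)
      (funext fun y => (congrArg adc (h.tmp y.1)).trans (map_zero Wz78.adcL)) (fun _ _ => rfl) _
  rw [cwd57 (Z := cylM X.Y), k0] at k
  exact (mul_eq_zero.1 k.symm).resolve_left (by positivity)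

variable (hB : B.OK Z.I) (hG : G.OK B) (hX : e.X.D.OK)
include hB hG hX

theorem kd_st {c : C0 Z κ lam} (hc : c.Adm B G) {β : e.X.C} {w ζ} (h : e.St c β w ζ s) :
    ∀ x ∈ e.U s, c.m.kd B G.F c.W x = 0 := by
  have hs := src_sub e h.sub
  have hO : IsOpen (univ ×ˢ e.ht s : Set (e.X.Y.M × ℝ)) := isOpen_univ.prod (ht_open e s)
  have hU : IsOpen (e.U s) := e.K.ψ.isOpen_image_of_subset_source hO hs
  have r : Pj41.FRel G.F e.X.D.G.F e.K.ψ.symm (e.U s) :=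
    (Pj41.fRel_of_iso (Sob92.iso_symm e.K.iso)).mono hU (U_sub e h.sub)
  have hm : ∀ x ∈ e.U s, e.K.ψ.symm x ∈ univ ×ˢ e.ht s := by
    rintro _ ⟨z, hz, rfl⟩; rwa [e.K.ψ.left_inv (hs hz)]
  have hr : ∀ x ∈ e.U s, e.K.ψ (e.K.ψ.symm x) = x := fun x hx =>
    e.K.ψ.right_inv (U_sub e h.sub hx)
  have g := r.lg hB hX.B hG hX.G
    (fun a x hx => by rw [← e.K.a a _ (hs (hm x hx)), hr x hx])
    (fun a b c d x hx => by rw [← e.K.o a b c d _ (hs (hm x hx)), hr x hx])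
    (fun x hx => by rw [← e.K.l _ (hs (hm x hx)), hr x hx]) e.K.il
  have m := h.eq.m
  have l := g.lm (m' := (cy β).m) (u := fun x => w (e.K.ψ.symm x)) hc.ok h.adm.adm.ok hc.conn
    h.adm.adm.conn
    ⟨fun x hx => (r.sm hx (m.su.contMDiffAt (hO.mem_nhds (hm x hx)))).contMDiffWithinAt,
      fun x hx => (m.uu _ (hm x hx)).trans (congrArg c.m.p (hr x hx)),
      fun x hx => m.uu' _ (hm x hx), fun x hx => m.J _ (hm x hx),
      fun x hx b => (m.ρ _ (hm x hx) b).trans (congrArg (fun y => w (e.K.ψ.symm x) ∘L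
        ∑ a, e.X.D.B.P b a (e.K.ψ.symm x) • c.m.ρ a y) (hr x hx)),
      fun x hx t => (m.j _ (hm x hx) t).trans
        (congrArg (fun y => w (e.K.ψ.symm x) ∘L c.m.j y t) (hr x hx))⟩
    (fun x hx a => (congrArg₂ (fun d y => d + (∑ b, e.X.D.B.P b a (e.K.ψ.symm x) •
      β.W b (e.K.ψ.symm x).1) ∘L w (e.K.ψ.symm x) - w (e.K.ψ.symm x) ∘L c.W a y)
        (r.D hx a (u' := w) (.of_forall fun _ => rfl)) (hr x hx).symm).trans (h.eq.W _ (hm x hx) a))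
  exact fun x hx => (l.kd hx).symm.trans (kd_cy hX h.adm _)

end neck

section neck2
variable {b : BG κ lam Z} (e : En b.B b.G) (hB : b.B.OK Z.I) (hG : b.G.OK b.B) (hX : e.X.D.OK)
  {s : ℝ} (h : e.ht s ⊆ e.K.J)
include hB hG hX h

theorem dA_U : ∀ x ∈ e.U s, dA b x = 0 := fun x hx => by
  have k := Num57.nk_zero e.K hX (U_sub e h hx)
  rw [dA, eud57, sgd57, k.1, k.2.1]; simp

theorem dD_U : ∀ x ∈ e.U s, dD b x = 0 := fun x hx => by
  have k := Num57.nk_zero e.K hX (U_sub e h hx)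
  rw [dD, lad57 hB hG, sgd57, k.1, k.2.2]; simp

end neck2

/-- continuous functions which vanish high up on the ends are integrable -/
theorem intOn {b : BG κ lam Z} {O' : Set Z.M} (hb : b.OK O') {f : Z.M → ℝ} (hf : Continuous f)
    (h0 : ∀ a, ∃ s, (b.E a).ht s ⊆ (b.E a).K.J ∧ ∀ x ∈ (b.E a).U s, f x = 0) :
    IntegrableOn f b.O b.G.F.μ := by
  choose s h1 h2 using h0
  obtain ⟨t, ht⟩ := (finite_range s).bddAbove
  have k := fun a => ht (mem_range_self a)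
  obtain ⟨C, hC, hs⟩ := hb.cpt t fun a => (ht_anti _ (k a)).trans (h1 a)
  refine (hf.continuousOn.integrableOn_compact hC).of_forall_sdiff_eq_zero
    hb.cl.2.measurableSet fun x hx => ?_
  obtain ⟨a, ha⟩ := mem_iUnion.1 ((hs hx.1).resolve_left hx.2)
  exact h2 a x (U_anti _ (k a) ha)

section int
variable {b : BG κ lam Z} {O' : Set Z.M} (hb : b.OK O')
include hb

theorem int_dA : IntegrableOn (dA b) b.O b.G.F.μ :=
  intOn hb (ct_dA hb.B hb.G) fun a => hb.en.imp fun _ h =>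
    ⟨(h a).1, dA_U _ hb.B hb.G (hb.X a).ok (h a).1⟩

theorem int_dD : IntegrableOn (dD b) b.O b.G.F.μ :=
  intOn hb (ct_dD hb.B hb.G) fun a => hb.en.imp fun _ h =>
    ⟨(h a).1, dD_U _ hb.B hb.G (hb.X a).ok (h a).1⟩

theorem int_dK {c β} (h : b.Std c β) : IntegrableOn (dK b c) b.O b.G.F.μ :=
  intOn hb (ct_dK hb.B hb.G h.1) fun a => by
    obtain ⟨w, ζ, s, k⟩ := h.2 a
    exact ⟨s, k.sub, kd_st _ hb.B hb.G (hb.X a).ok h.1 k⟩

end int

/-! ### patches -/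

section nat
variable {b : BG κ lam Z} {b' : BG κ lam Z'} (p : GP b b')

/-- related functions -/
def Rl (f : Z.M → ℝ) (f' : Z'.M → ℝ) : Prop := ∀ x ∈ p.φ.source, f' (p.φ x) = f x

theorem img {O O'} (h : p.Sp O O') : p.φ '' (p.φ.source ∩ O) = p.φ.target ∩ O' :=
  OpenPartialHomeomorph.IsImage.image_eq fun x hx => h x hx

theorem sp_top : p.Sp b.O b'.O := fun _ hx =>
  iff_of_true (p.sub' (p.φ.map_source hx)) (p.sub hx)

variable {O₀ O₀'} (hb : b.OK O₀) (hb' : b'.OK O₀')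
include hb hb'

theorem kg {S} (hS : IsOpen S) (hs : S ⊆ p.φ.source) :
    KG b.B b.G b'.B b'.G S (p.φ '' S) p.φ p.φ.symm p.U p.v :=
  kg_of_geq p.g hb.B hb.G hb'.B hb'.G hS hs

theorem rl_dA : Rl p (dA b) (dA b') := fun x hx => by
  have r := Num57.ro_of_lg (kg p hb hb' p.φ.open_source subset_rfl).toLG
  simp only [dA, eud57, sgd57, r.sgd hx, r.eud hx]

theorem rl_dD : Rl p (dD b) (dD b') := fun x hx => by
  have g := (kg p hb hb' p.φ.open_source subset_rfl).toLG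
  simp only [dD, lad57 hb.B hb.G, lad57 hb'.B hb'.G, sgd57, (Num57.ro_of_lg g).sgd hx,
    Num57.lg_lad g hx]

theorem rl_dK {c c' u ζ} (h : Cfg.Adm (r := 0) c b.B b.G) (h' : Cfg.Adm (r := 0) c' b'.B b'.G)
    (e : p.Ce c c' u ζ) : Rl p (dK b c) (dK b' c') := fun _ hx =>
  ((kg p hb hb' p.φ.open_source subset_rfl).toLG.lm h.ok h'.ok h.conn h'.conn e.m e.W).kd hx

variable {p} {f : Z.M → ℝ} {f' : Z'.M → ℝ} (h : Rl p f f') {O O'} (hO : IsOpen O) (sp : p.Sp O O')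
include h hO sp

theorem int_rel : ∫ y in p.φ.target ∩ O', f' y ∂b'.G.F.μ = ∫ x in p.φ.source ∩ O, f x ∂b.G.F.μ := by
  rw [← img p sp]
  exact (kg p hb hb' (p.φ.open_source.inter hO) inter_subset_left).integral_rel
    fun x hx => h x hx.1

theorem intOn_rel (k : IntegrableOn f' O' b'.G.F.μ) : IntegrableOn f (p.φ.source ∩ O) b.G.F.μ := by
  have hS := p.φ.open_source.inter hO
  have g := kg p hb hb' hS inter_subset_left
  have k1 : Integrable f' ((b.G.F.μ.restrict (p.φ.source ∩ O)).map p.φ) := by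
    rw [g.μ, img p sp]; exact k.mono_set inter_subset_right
  exact IntegrableOn.congr_fun
    (k1.comp_aemeasurable (aem_of_cont hS fun _ hx => p.φ.continuousAt hx.1))
    (fun x hx => h x hx.1) hS.measurableSet

theorem glob (h1 : O ⊆ p.φ.source) (h2 : O' ⊆ p.φ.target) :
    ∫ x in O, f x ∂b.G.F.μ = ∫ y in O', f' y ∂b'.G.F.μ := by
  have := int_rel hb hb' h hO sp
  rw [inter_eq_right.2 h1, inter_eq_right.2 h2] at this
  exact this.symm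

theorem part (hO' : IsOpen O') (h0 : ∀ y ∈ O' \ p.φ.target, f' y = 0) :
    ∫ y in O', f' y ∂b'.G.F.μ = ∫ x in p.φ.source ∩ O, f x ∂b.G.F.μ := by
  rw [← int_rel hb hb' h hO sp]
  exact setIntegral_eq_of_subset_of_forall_sdiff_eq_zero hO'.measurableSet inter_subset_right
    fun y hy => h0 y ⟨hy.1, fun k => hy.2 ⟨k, hy.1⟩⟩

end nat

section cut
variable {X : XD κ lam} {b₁ : BG κ lam Z₁} {b₃ : BG κ lam Z₃} {b₄ : BG κ lam Z₄}
  (g : GC X b₁ b₃ b₄)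

theorem J₃ : g.E₃.ht (g.s₃ - 1) ⊆ g.K₃.J := fun t ht => g.J₃ (by simpa [En.ht] using ht)

theorem J₄ : g.E₄.ht (g.s₄ - 1) ⊆ g.K₄.J := fun t ht => g.J₄ (by
  simp only [En.ht, cond_false, mem_ofPred_eq] at ht
  show t < 1 - g.s₄
  linarith)

/-- **additivity** -/
theorem cut {P₁ P₃ P₄} (h₁ : b₁.OK P₁) (h₃ : b₃.OK P₃) (h₄ : b₄.OK P₄) {O₁ O₃ O₄}
    (o₁ : IsOpen O₁) (o₃ : IsOpen O₃) (o₄ : IsOpen O₄) (s₁ : O₁ ⊆ b₁.O) (s₃ : O₃ ⊆ b₃.O)
    (s₄ : O₄ ⊆ b₄.O) (p₃ : g.p₃.Sp O₁ O₃) (p₄ : g.p₄.Sp O₁ O₄) {f₁ f₃ f₄} (r₃ : Rl g.p₃ f₁ f₃)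
    (r₄ : Rl g.p₄ f₁ f₄) (z₃ : ∀ x ∈ g.E₃.U (g.s₃ - 1), f₃ x = 0)
    (z₄ : ∀ x ∈ g.E₄.U (g.s₄ - 1), f₄ x = 0) (i₃ : IntegrableOn f₃ b₃.O b₃.G.F.μ)
    (i₄ : IntegrableOn f₄ b₄.O b₄.G.F.μ) :
    ∫ x in O₁, f₁ x ∂b₁.G.F.μ = ∫ x in O₃, f₃ x ∂b₃.G.F.μ + ∫ x in O₄, f₄ x ∂b₄.G.F.μ := by
  have m₃ := (g.p₃.φ.open_source.inter o₁).measurableSet
  have m₄ := (g.p₄.φ.open_source.inter o₁).measurableSet
  have e : O₁ = (g.p₃.φ.source ∩ O₁) ∪ ((g.p₄.φ.source ∩ O₁) \ (g.p₃.φ.source ∩ O₁)) := by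
    rw [union_sdiff_self, ← union_inter_distrib_right, g.cov, inter_eq_right.2 s₁]
  rw [part h₁ h₃ r₃ o₁ p₃ o₃ fun y hy => z₃ y ?_, part h₁ h₄ r₄ o₁ p₄ o₄ fun y hy => z₄ y ?_,
    setIntegral_eq_of_subset_of_forall_sdiff_eq_zero m₄
      (sdiff_subset (t := g.p₃.φ.source ∩ O₁)) fun x hx => ?_]
  · conv_lhs => rw [e]
    exact setIntegral_union disjoint_sdiff_right (m₄.diff m₃)
      (intOn_rel h₁ h₃ r₃ o₁ p₃ (i₃.mono_set s₃))
      ((intOn_rel h₁ h₄ r₄ o₁ p₄ (i₄.mono_set s₄)).mono_set sdiff_subset)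
  · have h3 : x ∈ g.p₃.φ.source := by
      by_contra k; exact hx.2 ⟨hx.1, fun k' => k k'.1⟩
    rw [← r₃ x h3]
    refine z₃ _ (image_mono (prod_mono subset_rfl fun t ht => ?_)
      (g.band.le (mem_image_of_mem _ ⟨h3, hx.1.1⟩)))
    simpa [En.ht] using ht.1
  · have := hy.2
    rw [g.t₄, Set.mem_sdiff, not_and, not_not] at this
    refine image_mono (prod_mono subset_rfl fun t ht => ?_) (this (s₄ hy.1))
    simp only [En.ht, cond_false, mem_ofPred_eq]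
    have : t ≤ -g.s₄ - 1 := ht
    linarith
  · have := hy.2
    rw [g.t₃, Set.mem_sdiff, not_and, not_not] at this
    refine image_mono (prod_mono subset_rfl fun t ht => ?_) (this (s₃ hy.1))
    simp only [En.ht, cond_true, mem_ofPred_eq]
    have : g.s₃ + 1 ≤ t := ht
    linarith

end cut

/-- **IX-TOP** -/
theorem topStmt : TopStmt κ lam := by
  refine ⟨fun Z Z' b b' p f O O' h h' l sp => ?_, fun X Z₁ Z₃ Z₄ b₁ b₃ b₄ g O₁ O₃ O₄ f h => ?_,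
    fun X h => ?_⟩
  · have s : O ⊆ p.φ.source := l.src ▸ h.sub
    have t : O' ⊆ p.φ.target := l.tgt ▸ h'.sub
    exact ⟨glob h h' (rl_dA p h h') h.cl.2 (sp_top p) l.src.ge l.tgt.ge,
      glob h h' (rl_dD p h h') h.cl'.2 sp s t, fun c c' u ζ k k' e =>
      ⟨glob h h' (rl_dK p h h' k k' e) h.cl.2 (sp_top p) l.src.ge l.tgt.ge,
        glob h h' (rl_dK p h h' k k' e) h.cl'.2 sp s t⟩⟩
  · have hX : X.D.OK := by have := (h.o₃.X g.a₃).ok; rwa [g.e₃] at this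
    have k1 := fun {f₁ f₃ f₄} => cut g (f₁ := f₁) (f₃ := f₃) (f₄ := f₄) h.o₁ h.o₃ h.o₄ h.o₁.cl.2
      h.o₃.cl.2 h.o₄.cl.2 subset_rfl subset_rfl subset_rfl (sp_top _) (sp_top _)
    have k2 := fun {f₁ f₃ f₄} => cut g (f₁ := f₁) (f₃ := f₃) (f₄ := f₄) h.o₁ h.o₃ h.o₄ h.o₁.cl'.2
      h.o₃.cl'.2 h.o₄.cl'.2 h.o₁.sub h.o₃.sub h.o₄.sub h.p₃ h.p₄
    refine ⟨k1 (rl_dA _ h.o₁ h.o₃) (rl_dA _ h.o₁ h.o₄) (dA_U g.E₃ h.o₃.B h.o₃.G hX (J₃ g))
      (dA_U g.E₄ h.o₄.B h.o₄.G hX (J₄ g)) (int_dA h.o₃) (int_dA h.o₄),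
      k2 (rl_dD _ h.o₁ h.o₃) (rl_dD _ h.o₁ h.o₄) (dD_U g.E₃ h.o₃.B h.o₃.G hX (J₃ g))
      (dD_U g.E₄ h.o₄.B h.o₄.G hX (J₄ g)) (int_dD h.o₃) (int_dD h.o₄),
      fun c₁ c₃ c₄ β β₃ β₄ c t₃ t₄ => ?_⟩
    obtain ⟨u₃, ζ₃, u₄, ζ₄, w₃, η₃, w₄, η₄, e₃, e₄, d₃, d₄, -⟩ := c.ex
    have r₃ := rl_dK _ h.o₁ h.o₃ c.a₁ c.a₃ e₃
    have r₄ := rl_dK _ h.o₁ h.o₄ c.a₁ c.a₄ e₄
    have z₃ := kd_st g.E₃ h.o₃.B h.o₃.G hX c.a₃ d₃
    have z₄ := kd_st g.E₄ h.o₄.B h.o₄.G hX c.a₄ d₄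
    exact ⟨k1 r₃ r₄ z₃ z₄ (int_dK h.o₃ t₃) (int_dK h.o₄ t₄),
      k2 r₃ r₄ z₃ z₄ (int_dK h.o₃ t₃) (int_dK h.o₄ t₄)⟩
  · have k := fun x : (cylM X.Y).M => Num57.nk_zero X.D.nk h.ok (z := x) trivial
    refine ⟨integral_eq_zero_of_ae (.of_forall fun x => ?_),
      integral_eq_zero_of_ae (.of_forall fun x => ?_),
      fun β hβ => integral_eq_zero_of_ae (.of_forall fun x => kd_cy h.ok hβ x)⟩
    · show dA X.bg x = 0
      rw [dA, eud57, sgd57, (k x).1, (k x).2.1]; simp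
    · show dD X.bg x = 0
      rw [dD, lad57 (Z := cylM X.Y) h.ok.B h.ok.G, sgd57, (k x).1, (k x).2.2]; simp

end Crest.Agent.X212.Top36
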